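import Vale.Agent.P057DW.Out
import Vale.Agent.P057RG.Num

/-!
The density increment on regular point cells.
-/

set_option linter.all false

open Matrix Finset
open Vale.Agent.P267.H775 Vale.Agent.P057G Vale.Agent.P057PC Vale.Agent.P057TP Vale.Agent.P057RG
open Vale.Agent.P057DW

namespace Vale.Agent.P057FN

noncomputable section

variable {T T' T'' : Tow} {s : ℕ} {N : ℝ}

theorem dm_out (hT : T.Ok s N) {e : ℕ} (he : e = 0 ∨ s < e) : T.dm e = 0 := by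
  unfold Tow.dm
  rw [filter_eq_empty_iff.2 fun a _ h => by have := hT.pos a; have := hT.le a; omega]
  simp

theorem yy_out (hs : 1 ≤ s) (hT : T.Ok s N) {e : ℕ} (he : e = 0 ∨ s < e) : T.yy N e = 0 := by
  haveI : IsEmpty {a // T.lv a = e} :=
    ⟨fun a => by have := hT.pos a; have := hT.le a; have := a.2; omega⟩
  unfold Tow.yy
  rw [det_isEmpty, if_neg (by omega)]
  simp

theorem cx_of (hs : 1 ≤ s) (hT : T.Ok s N) {P : ℕ → ℝ} (h0 : ∀ e, 0 ≤ P e)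
    (h : ∀ e, 1 ≤ e → e ≤ s → T.dm e ≤ P e ∧ T.yy N e ≤ P e) : T.Cx N P := fun e => by
  by_cases k : e = 0 ∨ s < e
  · rw [dm_out hT k, yy_out hs hT k]; exact ⟨h0 e, h0 e⟩
  · exact h e (by omega) (by omega)

theorem grow_of (hs : 1 ≤ s) (hT : T.Ok s N) (hT' : T'.Ok s N) {Q Q' : ℕ → ℝ} (h0 : ∀ e, 0 ≤ Q' e)
    (h : T.Grow N T' Q) (hQ : ∀ e, e ≤ s + 1 → Q e ≤ Q' e) : T.Grow N T' Q' := fun e => by
  by_cases k : s < e
  · rw [dm_out hT (Or.inr k), yy_out hs hT (Or.inr k), dm_out hT' (Or.inr k),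
      yy_out hs hT' (Or.inr k)]
    constructor <;> linarith [h0 (e + 1)]
  · have := hQ (e + 1) (by omega)
    exact ⟨(h e).1.trans (by linarith), (h e).2.trans (by nlinarith [dm_nonneg T e])⟩

theorem pw_add {x : ℝ} (hx : 2 ≤ x) (i j : ℕ) : x ^ i + (1 + x ^ i) * x ^ j ≤ x ^ (i + j + 2) := by
  have h1 : 1 ≤ x ^ i := one_le_pow₀ (by linarith)
  have h2 : 1 ≤ x ^ j := one_le_pow₀ (by linarith)
  have h3 : 4 ≤ x ^ 2 := by nlinarith
  rw [pow_add, pow_add]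
  nlinarith [mul_le_mul h1 h2 zero_le_one (by linarith), mul_le_mul_of_nonneg_left h2
    (show 0 ≤ x ^ i by linarith), mul_le_mul_of_nonneg_right h1 (show 0 ≤ x ^ j by linarith),
    mul_le_mul_of_nonneg_left h3 (show 0 ≤ x ^ i * x ^ j by positivity)]

theorem grow_pw {P : ℕ → ℝ} (hP : ∀ e, 2 ≤ P e) {i j : ℕ} (h : T.Grow N T' fun e => P e ^ i)
    (h' : T'.Grow N T'' fun e => P e ^ j) : T.Grow N T'' fun e => P e ^ (i + j + 2) := fun e =>
  have := hP (e + 1)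
  grow_num (dm_nonneg T e) (h e).1 (h e).2 (h' e).1 (h' e).2 (by positivity) (by positivity)
    (pw_add this i j)

theorem cx_pw {P : ℕ → ℝ} (hP : ∀ e, 2 ≤ P e) (ha : ∀ e, P (e + 1) ≤ P e) {i : ℕ}
    (hC : T.Cx N P) (h : T.Grow N T' fun e => P e ^ i) (e : ℕ) :
    T'.dm e ≤ P e ^ (i + 3) ∧ T'.yy N e ≤ P e ^ (i + 3) := by
  have h1 := pw_add (hP e) 1 i
  have h2 : P (e + 1) ^ i ≤ P e ^ i := pow_le_pow_left₀ (by linarith [hP (e + 1)]) (ha e) i
  have h3 : 0 ≤ P (e + 1) ^ i := by have := hP (e + 1); positivity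
  have h4 := dm_nonneg T e
  have h5 := mul_le_mul (show T.dm e + 1 ≤ 1 + P e by linarith [(hC e).1]) h2 h3
    (by linarith [hP e])
  rw [pow_one, show 1 + i + 2 = i + 3 by ring] at h1
  have h6 := (h e).1
  have h7 := (h e).2
  have h8 : 0 ≤ P e * P e ^ i := by have := hP e; positivity
  constructor <;> nlinarith [(hC e).1, (hC e).2]

theorem gs_mono {n p : ℕ} {f : ℤ → ℝ} {θ θ' : ℝ} (h : GS T n f p θ) (h0 : 0 ≤ θ') (h1 : θ' ≤ θ) :
    GS T n f p θ' := by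
  obtain ⟨Z, k1, k2⟩ := h
  exact ⟨Z, k1, (pow_le_pow_left₀ h0 h1 _).trans k2⟩

theorem ex0_sub {C W S : Type} [Fintype W] [DecidableEq W] [Fintype S] {cl : W → C} {m : ℕ}
    {Z' : Sys T' W S} {Z : Sys T W S} {Ψ : Fam ℤ T.ι T'.ι W S} {R r : ℝ}
    (h : Sub cl m Z' Z Ψ R r) (f : ℤ → ℝ) (θ : ℝ) :
    (fun z => Z.Ex0 cl m f θ (Ψ.sub cl m z)) = Z'.Ex0 cl m f θ := funext fun z => by
  unfold Sys.Ex0 Sys.PF
  rw [prod_congr rfl fun c hc => prod_congr rfl fun t _ => h.cel f z c hc t]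

theorem unit_ind (A : Finset ℤ) : Unit01 (ind A) := fun x => by
  unfold ind; split_ifs <;> norm_num

theorem bern {η ε θ : ℝ} {k : ℕ} (η0 : 0 < η) (η1 : η ≤ 1 / 10) (ε0 : 0 < ε)
    (ε2 : 8 * (s + 1) * ε = η) (θ0 : 0 < θ) (hk : k ≤ 2 * s + 1) :
    (1 + η / 2) * θ ≤ (1 - ε) ^ k * ((1 + η) * θ) := by
  have s0 : (0 : ℝ) ≤ s := Nat.cast_nonneg s
  have h1 := one_add_mul_le_pow (show -2 ≤ -ε by nlinarith) k
  have h2 : (k : ℝ) ≤ 2 * s + 1 := by exact_mod_cast hk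
  have h3 : 1 - η / 4 ≤ (1 - ε) ^ k := by
    rw [sub_eq_add_neg 1 ε]; nlinarith
  rw [← mul_assoc]
  refine mul_le_mul_of_nonneg_right ?_ θ0.le
  nlinarith [mul_le_mul_of_nonneg_right h3 (show 0 ≤ 1 + η by linarith)]

theorem inc (hs : 1 ≤ s) (hS : START s) (hR : REG s) (hP : PT s) (hG : GH0 s) (hU : UB s)
    (hD : DOWN s) : INC s := by
  obtain ⟨η, η0, η1, cS, hS⟩ := hS
  obtain ⟨cR, hR⟩ := hR
  obtain ⟨cU, hU⟩ := hU
  set ε := η / (8 * (s + 1)) with hε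
  have s0 : (0 : ℝ) ≤ s := Nat.cast_nonneg s
  have ε0 : 0 < ε := by positivity
  have ε2 : 8 * (s + 1) * ε = η := by rw [hε]; field_simp
  have ε1 : ε ≤ 1 / 10 := by nlinarith
  obtain ⟨cP, hP⟩ := hP ε ε0 ε1
  obtain ⟨cG, hG⟩ := hG ε ε0 ε1
  obtain ⟨cD, hD⟩ := hD ε ε0 ε1 s le_rfl
  set b := 2 * cD + cG + cS + 3 with hb
  set a := cS + b * cR + 5 with ha
  refine ⟨η / 2, by linarith, by linarith,
    cS + b * cR + 2 + a * cD + 2 + (a + b + cR + cP + cG + cD + cU + s),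
    fun N P T A θ X hL hT hC hA h0 hX hXP hl hθ hg hF => ?_⟩
  set c := cS + b * cR + 2 + a * cD + 2 + (a + b + cR + cP + cG + cD + cU + s) with hc
  have cle : ∀ {x : ℕ}, x ≤ c → (x : ℝ) ≤ c := fun h => by exact_mod_cast h
  have X2 : (2 : ℝ) ≤ X := le_trans (by exact_mod_cast (show 2 ≤ c by omega)) hX
  have X1 : (1 : ℝ) ≤ X := by linarith
  have p2 : ∀ e, (2 : ℝ) ≤ P e := fun e => le_trans (by exact_mod_cast (show 2 ≤ c by omega)) (hL.big e)
  have p1 : ∀ e, (1 : ℝ) ≤ P e := fun e => by linarith [p2 e]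
  have p0 : ∀ e, (0 : ℝ) ≤ P e := fun e => by linarith [p2 e]
  have Xc : ∀ {x : ℕ}, x ≤ c → X ^ x ≤ P (s + 1) := fun h => (pow_le_pow_right₀ X1 h).trans hXP
  have XP : X ≤ P (s + 1) := by simpa using Xc (show 1 ≤ c by omega)
  have pw : ∀ e {x y : ℕ}, x ≤ y → P e ^ x ≤ P e ^ y := fun e _ _ h => pow_le_pow_right₀ (p1 e) h
  have pb : ∀ e {y : ℕ}, 1 ≤ y → P e ≤ P e ^ y := fun e _ h => by simpa using pw e h
  have θ0 : 0 < θ := (Real.exp_pos _).trans_le hθ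
  have θ2 : θ ≤ 2 := hU N T _ θ hT (unit_ind A) hg (lfd_mono hT hF le_rfl
    ((cle (by omega)).trans (hX.trans (le_self_pow₀ X1 (by omega))))
    ((cle (by omega)).trans (hX.trans (le_self_pow₀ X1 (by omega)))))
  set P₁ : ℕ → ℝ := fun e => if e ≤ s then P e else X with hP₁
  have q1 : P₁ (s + 1) = X := if_neg (by omega)
  have q2 : ∀ e, e ≤ s → P₁ e = P e := fun e he => if_pos he
  have q3 : ∀ e, e ≤ s + 1 → P₁ e ≤ P e := fun e he => by
    rcases he.eq_or_lt with rfl | k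
    · rw [q1]; exact XP
    · rw [q2 e (by omega)]
  have q4 : ∀ e, (c : ℝ) ≤ P₁ e := fun e => by
    simp only [hP₁]; split_ifs
    exacts [hL.big e, hX]
  have L1 : Lad s N cS P₁ := by
    refine ⟨fun e => ?_, fun e => (cle (by omega)).trans (q4 e), ?_, hL.one, ?_⟩
    · by_cases k : e ≤ s
      · rw [q2 e k]; exact (q3 _ (by omega)).trans (hL.anti e)
      · simp only [hP₁, if_neg k, if_neg (show ¬ e + 1 ≤ s by omega), le_refl]
    · rw [q1, q2 0 (by omega)]; exact hl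
    · rw [q2 1 hs]; exact hL.lN
  obtain ⟨T₁, B, κ, σ, g1, g2, g3, g4, g5, g6⟩ := hS N P₁ T A θ L1 hT
    (cx_of hs hT (fun e => le_trans (Nat.cast_nonneg c) (q4 e)) fun e _ he => q2 e he ▸ hC e) hA h0
    (q1 ▸ hθ) hg (by
      rw [q1]
      exact lfd_mono hT hF le_rfl (pow_le_pow_right₀ X1 (by omega))
        (pow_le_pow_right₀ X1 (by omega)))
  rw [q1] at g3 g4 g6
  rw [q2 1 hs] at g5
  have G1 : T.Grow N T₁ fun e => P e ^ cS := grow_of hs hT g1 (fun e => pow_nonneg (p0 e) _) g2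
    fun e he => pow_le_pow_left₀ (le_trans (Nat.cast_nonneg c) (q4 e)) (q3 e he) _
  have L2 : Lad s N cR fun e => P e ^ b := lad_mono (lad_pow hL (by
    exact_mod_cast (show 1 ≤ c by omega)) (a := fun _ => b) (fun _ => le_rfl) (fun _ => by omega)
    (cle (by omega))) (cle (by omega))
  have C1 : T₁.Cx N fun e => P e ^ b := fun e =>
    ⟨(cx_pw p2 hL.anti hC G1 e).1.trans (pw e (by omega)),
      (cx_pw p2 hL.anti hC G1 e).2.trans (pw e (by omega))⟩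
  have r1 : X ^ (cS + 1) ≤ P (s + 1) ^ b := (Xc (by omega)).trans (pb _ (by omega))
  have r2 : X ^ cS ≤ P (s + 1) ^ b := (pow_le_pow_right₀ X1 (by omega)).trans r1
  have r3 : P 1 ^ cS ≤ P 0 ^ b :=
    (pow_le_pow_left₀ (p0 1) (hL.anti 0) _).trans (pw 0 (by omega))
  have r4 : ∀ {x : ℝ}, x ≤ P (s + 1) ^ b → x ≤ P s ^ b := fun h =>
    h.trans (pow_le_pow_left₀ (p0 _) (hL.anti s) _)
  have r5 : P (s + 1) ≤ P (s + 1) ^ b := pb _ (by omega)
  have κ0 : 0 ≤ (1 - 1 / P 0 ^ b) * κ := mul_nonneg (by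
    rw [sub_nonneg, div_le_one (pow_pos (by linarith [p1 0]) _)]; exact one_le_pow₀ (p1 0))
    ((Real.exp_pos _).le.trans g4)
  have σ0 : 0 < σ * Real.exp (-(P 1 ^ b) ^ cR) :=
    mul_pos ((Real.exp_pos _).trans_le g5) (Real.exp_pos _)
  have be : ∀ k : ℕ, k ≤ 2 * s + 1 → (1 + η / 2) * θ ≤ (1 - ε) ^ k * ((1 + η) * θ) :=
    fun k hk => bern η0 η1 ε0 ε2 θ0 hk
  have θ3 : 0 ≤ (1 + η) * θ := mul_nonneg (by linarith only [η0]) θ0.le
  have θ4 : 0 ≤ (1 + η / 2) * θ := mul_nonneg (by linarith only [η0]) θ0.le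
  have pc : ∀ {x : ℕ}, x ≤ c → (x : ℝ) ≤ P (s + 1) := fun h => (cle h).trans (hL.big _)
  rcases g6 with ⟨Z, z1, z2⟩ | ⟨p, Z, k1, k2, z1, z2⟩
  · obtain ⟨T₂, Z', Ψ, t1, t2, -, t3, t4, t5, -, -, t6, -⟩ := hR N _ T₁ (Fin 0) (Fin 0) Unit id
      (s + 1) s Z _ B κ σ L2 g1 C1 z1 (by omega) le_rfl (by simpa using one_le_pow₀ (p1 _))
      (g3.trans (Real.exp_le_exp.2 r2)) (le_trans (Real.exp_le_exp.2 (neg_le_neg r2)) g4)
      (le_trans (Real.exp_le_exp.2 (neg_le_neg r3)) g5) z2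
    rw [ex0_sub t3] at t4
    have h1 := hP N T₂ Z' _ _ B _ _ t1 t2 (unit_ind A) θ3 κ0 σ0 t4
      (lfd_mono t1 t6 le_rfl (r4 ((pc (by omega)).trans r5)) ((pc (by omega)).trans r5))
    refine ⟨T₂, t1, grow_mono (grow_pw p2 G1 (j := b * cR) (by simpa only [pow_mul] using t5))
      fun e => pw e (by omega), gs_mono h1 θ4 (by simpa using be 1 (by omega)),
      lfd_mono t1 t6 le_rfl (r4 r5) r5⟩
  · have p0' : (0 : ℝ) ≤ p := Nat.cast_nonneg p
    obtain ⟨T₂, Z', Ψ, t1, t2, -, t3, t4, t5, -, -, t6, -⟩ := hR N _ T₁ (Fin s) (Fin s × Fin p)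
      (Fin p) Prod.fst (s + 1) s Z _ B κ σ L2 g1 C1 z1 (by omega) le_rfl (by
        simp only [Fintype.card_prod, Fintype.card_fin, Nat.cast_mul]
        refine le_trans ?_ r1
        have : (s : ℝ) + 1 ≤ X := le_trans (by exact_mod_cast (show s + 1 ≤ c by omega)) hX
        rw [pow_succ]
        linarith only [mul_le_mul this k2 p0' (by linarith only [X1])])
      (g3.trans (Real.exp_le_exp.2 r2)) (le_trans (Real.exp_le_exp.2 (neg_le_neg r2)) g4)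
      (le_trans (Real.exp_le_exp.2 (neg_le_neg r3)) g5) z2
    rw [ex0_sub t3] at t4
    have k3 : (p : ℝ) ≤ P (s + 1) := k2.trans (Xc (by omega))
    have h1 := hG N T₂ s p Z' _ _ B _ _ (P (s + 1)) t1 t2 le_rfl (unit_ind A) θ3 k1 k3
      (pc (by omega)) κ0 σ0 t4 (lfd_mono t1 t6 le_rfl (r4 (pw _ (by omega))) (pw _ (by omega)))
    have G2 := grow_pw p2 G1 (j := b * cR) (by simpa only [pow_mul] using t5)
    set u : ℕ → ℕ := fun e => if e ≤ s then a else 2 with hu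
    have u1 : u (s + 1) = 2 := if_neg (by omega)
    have u2 : ∀ e, 2 ≤ u e ∧ u e ≤ a := fun e => by simp only [hu]; split_ifs <;> omega
    have L3 : Lad s N cD fun e => P e ^ u e := lad_mono (lad_pow hL (by
      exact_mod_cast (show 1 ≤ c by omega)) (fun e => by simp only [hu]; split_ifs <;> omega)
      (fun e => (u2 e).1) (cle (by have := (u2 0).2; omega))) (cle (by omega))
    have r6 : P (s + 1) ≤ P (s + 1) ^ u (s + 1) := pb _ (by omega)
    have h2 := be 1 (by omega)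
    rw [pow_one] at h2
    rcases hD N _ T₂ p _ _ L3 t1 (cx_of hs t1 (fun e => pow_nonneg (p0 e) _) fun e _ he => by
        simp only [hu, if_pos he]
        exact cx_pw p2 hL.anti hC G2 e) (unit_ind A)
      (le_trans (Real.exp_le_exp.2 (neg_le_neg (XP.trans r6))) (hθ.trans (by nlinarith only [h2, η0, θ0])))
      (by nlinarith only [θ3, ε0, η1, θ2, θ0, mul_nonneg ε0.le θ3]) k1 (k3.trans r6) h1 (by
        simp only [u1, ← pow_mul]
        exact lfd_mono t1 t6 le_rfl (r4 (pw _ (by omega))) (pw _ (by omega))) with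
      ⟨T₃, v1, v2, v3, v4⟩ | ⟨j, v1, v2, -⟩
    · refine ⟨T₃, v1, grow_mono (grow_pw p2 G2 (j := a * cD) (grow_mono v2 fun e => by
        rw [← pow_mul]; exact pw e (Nat.mul_le_mul_right _ (u2 e).2))) fun e => pw e (by omega),
        gs_mono v3 θ4 ?_, lfd_mono v1 v4 le_rfl r6 r6⟩
      rw [← mul_assoc, ← pow_succ]
      exact be _ le_rfl
    · omega

end

end Vale.Agent.P057FN
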