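import Vale.Agent.P057FN.Inc
import Vale.Agent.P057Z.Rg.Num

/-!
The iteration of the density increment, and the sum of the reciprocals.
-/

set_option linter.all false

open Matrix Finset
open Vale.Agent.P267.H775 Vale.Agent.P057G Vale.Agent.P057PC Vale.Agent.P057TP Vale.Agent.P057RG
open Vale.Agent.P057DW

namespace Vale.Agent.P057FN

noncomputable section

/-- the initial tower -/
def t0 (N : ℝ) : Tow where
  ι := Unit
  lv _ := 1
  q _ := 0
  G := Matrix.of fun _ _ => (N ^ 2)⁻¹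
  el _ := 1

instance (N : ℝ) : Unique (t0 N).ι := inferInstanceAs (Unique Unit)

theorem dot_t0 {N : ℝ} {R : Type} [CommRing R] (x y : (t0 N).ι → R) :
    x ⬝ᵥ y = x default * y default := Fintype.sum_subsingleton _ _

theorem qq_t0 (N : ℝ) (x : (t0 N).ι → ℝ) : qq (t0 N).G x = (N ^ 2)⁻¹ * x default ^ 2 := by
  rw [qq, dot_t0, mulVec, dot_t0]
  change x default * ((N ^ 2)⁻¹ * x default) = _
  ring

theorem ok_t0 {s : ℕ} {N : ℝ} (hs : 1 ≤ s) (hN : 1 ≤ N) : (t0 N).Ok s N where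
  pos _ := Nat.one_pos
  le _ := hs
  hom _ := MvPolynomial.isWeightedHomogeneous_zero _ _ _
  low _ j h := absurd (MvPolynomial.vars_0 (σ := Unit) (R := ℝ) ▸ h) (notMem_empty _)
  pd := by
    have : (t0 N).G = Matrix.diagonal fun _ => (N ^ 2)⁻¹ := by
      ext i j
      rw [Subsingleton.elim j i, diagonal_apply_eq]; rfl
    rw [this]
    exact Matrix.posDef_diagonal_iff.2 fun _ => by positivity
  blk _ _ h := absurd rfl h
  el1 _ h := absurd rfl h
  sep z h0 h := absurd (funext fun i => by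
    rw [dot_t0] at h
    rw [Subsingleton.elim i default]
    exact (one_mul _).symm.trans h) h0
  elN x := by
    rw [qq_t0, dot_t0]
    change (((1 : ℤ) : ℝ) * x default) ^ 2 ≤ _
    apply le_of_eq; push_cast; field_simp

theorem det_t0 (N : ℝ) (Q : (t0 N).ι → Prop) [DecidablePred Q] (h : Q default) :
    (bk (t0 N).G Q).det = (N ^ 2)⁻¹ := by
  haveI : Unique {a // Q a} := ⟨⟨⟨default, h⟩⟩, fun _ => rfl⟩
  rw [det_unique]; rfl

theorem cx_t0 {s : ℕ} {N : ℝ} (hs : 1 ≤ s) (hN : 1 ≤ N) (e : ℕ) :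
    (t0 N).dm e ≤ 1 ∧ (t0 N).yy N e ≤ 0 := by
  refine ⟨by
    unfold Tow.dm
    exact_mod_cast (card_le_univ _).trans (le_of_eq rfl), ?_⟩
  by_cases he : e = 1
  · subst he
    unfold Tow.yy
    rw [det_t0 N (fun a => (t0 N).lv a = 1) rfl, if_pos rfl, Real.log_inv, Real.log_pow]
    push_cast; linarith
  · haveI : IsEmpty {a // (t0 N).lv a = e} := ⟨fun a => he a.2.symm⟩
    unfold Tow.yy
    rw [det_isEmpty, if_neg he]
    simp

theorem gs_t0 {s N : ℕ} (hs : 1 ≤ s) (hN : 1 ≤ N) (A : Finset ℕ) (hA : A ⊆ Icc 1 N) :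
    GS (t0 N) 0 (ind (A.image Nat.cast)) 1 (Real.exp (-4) * (A.card / N)) := by
  have N1 : (1 : ℝ) ≤ N := by exact_mod_cast hN
  let Z : Sys (t0 N) (Fin 0) Unit := ⟨⟨fun _ _ => 0⟩, fun _ _ => 0⟩
  refine ⟨Z, ⟨⟨fun o a β μ h => absurd (by simp [Z]) h, fun _ _ => rfl⟩, fun a => map_zero _⟩, ?_⟩
  haveI : IsEmpty (Lb (t0 N) (Prod.fst : Fin 0 × Fin 1 → Fin 0) (Fin 1) (0 + 1)) :=
    ⟨fun l => absurd l.2.1 (lt_irrefl 1)⟩
  have hc : cells (Prod.fst : Fin 0 × Fin 1 → Fin 0) = {∅} := by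
    ext c
    have : c = ∅ := Subsingleton.elim _ _
    subst this
    simp only [cells, mem_filter, mem_univ, true_and, mem_singleton, iff_true]
    exact ⟨by simp, fun i => i.elim0⟩
  rw [tsum_fintype, Fintype.sum_unique, Sys.w, Sys.PF, hc, prod_singleton]
  have h1 : ∀ x, ng (Gam (t0 N) (Prod.fst : Fin 0 × Fin 1 → Fin 0) (Fin 1) (0 + 1)) x = 1 :=
    fun x => by simp [ng, gs, qq, vol]
  rw [h1, one_mul, Fin.prod_univ_one, one_pow, pow_one, Sys.F]
  let k : {a // 0 + 1 ≤ (t0 N).lv a} := ⟨default, le_rfl⟩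
  let e : ℤ ≃ ({a // 0 + 1 ≤ (t0 N).lv a} → ℤ) :=
    ⟨fun n _ => n, fun y => y k, fun _ => rfl, fun _ => rfl⟩
  rw [← e.tsum_eq]
  have h2 : ∀ (n : ℤ) z, ng (bk (t0 N).G fun a => 0 + 1 ≤ (t0 N).lv a) (fun a => (e n a : ℝ) -
      MvPolynomial.eval (toR (Sys.full (Prod.fst : Fin 0 × Fin 1 → Fin 0) (0 + 1) z ∅ (0 : Fin 1)
        (e n))) ((Z.blow 1).fam.at' (some 0) ∅ a)) * ind (A.image Nat.cast) ((Z.blow 1).off ∅ 0 +
        (t0 N).el ⬝ᵥ Sys.full (Prod.fst : Fin 0 × Fin 1 → Fin 0) (0 + 1) z ∅ (0 : Fin 1) (e n)) =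
      Real.exp (-(Real.pi * (((N : ℝ) ^ 2)⁻¹ * n ^ 2))) / N * ind (A.image Nat.cast) n := fun n z => by
    haveI : Unique {a // 0 + 1 ≤ (t0 N).lv a} := ⟨⟨k⟩, fun _ => rfl⟩
    congr 1
    · rw [ng, vol, det_t0 (N : ℝ) (fun a => 0 + 1 ≤ (t0 N).lv a) le_rfl, Real.sqrt_inv, Real.sqrt_sq (by linarith), inv_inv, gs]
      congr 4
      have h3 : ∀ a, (Z.blow 1).fam.at' (some 0) ∅ a = 0 := fun a => by
        simp only [Z, Sys.blow, Fam.at', map_zero]
      simp only [h3, map_zero, sub_zero, qq, dotProduct, mulVec, Fintype.sum_subsingleton _ k]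
      change (n : ℝ) * (((N : ℝ) ^ 2)⁻¹ * n) = _
      ring
    · rw [dot_t0]
      exact congrArg _ ((zero_add _).trans (one_mul n))
  simp only [h2]
  rw [tsum_eq_sum (s := A.image Nat.cast) fun n hn => by rw [ind, if_neg hn, mul_zero],
    sum_image fun _ _ _ _ h => Nat.cast_injective h, mul_div_assoc', mul_comm, mul_div_assoc,
    ← nsmul_eq_mul]
  refine card_nsmul_le_sum _ _ _ fun a ha => ?_
  rw [ind, if_pos (mem_image_of_mem _ ha), mul_one]
  refine div_le_div_of_nonneg_right (Real.exp_le_exp.2 (neg_le_neg ?_)) (by linarith)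
  have a1 : (a : ℝ) ≤ N := by exact_mod_cast (mem_Icc.1 (hA ha)).2
  have a2 : ((N : ℝ) ^ 2)⁻¹ * ((a : ℤ) : ℝ) ^ 2 ≤ 1 := by
    rw [inv_mul_le_iff₀ (by positivity), mul_one, Int.cast_natCast]
    exact pow_le_pow_left₀ (Nat.cast_nonneg a) a1 2
  nlinarith [Real.pi_le_four, Real.pi_pos]

theorem apf_of {k : ℕ} (hk : 0 < k) {A : Finset ℕ}
    (h : ∀ a d : ℕ, 0 < d → ¬ ∀ i : ℕ, i < k → a + i * d ∈ A) : APF k (A.image Nat.cast) := by
  intro a d hd H
  obtain ⟨a0, -, h0⟩ := mem_image.1 (H 0 hk)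
  obtain ⟨d0, rfl⟩ := Int.eq_ofNat_of_zero_le hd.le
  refine h a0 d0 (by exact_mod_cast hd) fun i hi => ?_
  obtain ⟨x, h1, h2⟩ := mem_image.1 (H i hi)
  have : x = a0 + i * d0 := by
    have : (x : ℤ) = a0 + i * d0 := by rw [h2, h0]; simp
    exact_mod_cast this
  exact this ▸ h1

theorem no_cert {N H : ℝ} {j : ℕ} {D Y : ℕ → ℝ} (hN : 1 ≤ N) (h : Cert (t0 N) N j H D Y) :
    N ^ 2 ≤ H := by
  obtain ⟨_, _, k, _, -, -, -, -, ⟨w, h1⟩, h2, -⟩ := h
  have h3 := h2 fun _ => 1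
  rw [qq_t0] at h3
  have h4 : k default * w default = 1 := dot_t0 k w ▸ h1
  have h5 : toR k ⬝ᵥ (fun _ => (1 : ℝ)) = k default := (dot_t0 _ _).trans (mul_one _)
  have h6 : ((k default : ℤ) : ℝ) ^ 2 = 1 := by
    rcases Int.eq_one_or_neg_one_of_mul_eq_one h4 with h | h <;> rw [h] <;> norm_num
  rw [h5, h6, one_pow, mul_one, le_mul_inv_iff₀ (by positivity), one_mul] at h3
  exact h3

theorem num_cx {X d y i q : ℝ} {n : ℕ} (hX : 3 ≤ X) (hi : i ≤ X ^ 2) (hq : q = X ^ n)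
    (hd : d ≤ 1 + i * q) (hy : y ≤ i * (2 + i * q) * q) (i0 : 0 ≤ i) :
    d ≤ X ^ (2 * n + 5) ∧ y ≤ X ^ (2 * n + 5) := by
  have q1 : 1 ≤ q := hq ▸ one_le_pow₀ (by linarith)
  have h1 : i * q ≤ X ^ 2 * q := mul_le_mul_of_nonneg_right hi (by linarith)
  have h2 : 9 ≤ X ^ 2 * q := by nlinarith
  have h3 : X ^ (2 * n + 5) = X * (X ^ 2 * q) ^ 2 := by rw [hq]; ring
  have h4 : 0 ≤ i * q := by positivity
  rw [h3]
  constructor <;> nlinarith [mul_le_mul h1 h1 h4 (by linarith)]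

theorem bound {s : ℕ} (hs : 1 ≤ s) (hI : INC s) (hU : UB s) (hB : THB) (hD : DOWN s) :
    ∃ c : ℝ, 0 < c ∧ ∃ N₀ : ℕ, ∀ N : ℕ, N₀ ≤ N → ∀ A : Finset ℕ, A ⊆ Icc 1 N →
    (∀ a d : ℕ, 0 < d → ¬ ∀ i : ℕ, i < s + 2 → a + i * d ∈ A) →
    (A.card : ℝ) ≤ N * Real.exp (-Real.log N ^ c) := by
  obtain ⟨η, η0, η1, cI, hI⟩ := hI
  obtain ⟨cU, hU⟩ := hU
  obtain ⟨cB, hB⟩ := hB
  obtain ⟨cD, hD⟩ := hD (1 / 10) (by norm_num) le_rfl 0 (Nat.zero_le s)
  set c := cI + cU + cB + cD + 1 with hc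
  set a : ℕ → ℕ := fun e => c * (2 * c + 5) ^ (s + 1 - e) with ha
  have a1 : ∀ e, c ≤ a e := fun e => Nat.le_mul_of_pos_right _ (by positivity)
  have a2 : ∀ e, a (e + 1) ≤ a e := fun e =>
    Nat.mul_le_mul_left _ (Nat.pow_le_pow_right (by omega) (by omega))
  have a3 : ∀ e, e ≤ s → 2 * (a (e + 1) * c) + 5 ≤ a e := fun e he => by
    have h1 : a e = a (e + 1) * (2 * c + 5) := by
      simp only [ha]
      rw [show s + 1 - e = s + 1 - (e + 1) + 1 by omega, pow_succ, mul_assoc]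
    have := a1 (e + 1)
    rw [h1]; nlinarith
  set K := 2 * a 1 + 3 with hK
  obtain ⟨c₀, c1⟩ := exists_nat_ge (8 / η + 2 * K + c + 4)
  rw [← sub_nonneg] at c1
  have K0 : (0 : ℝ) < K := by positivity
  have c0 : (0 : ℝ) ≤ c := Nat.cast_nonneg c
  have e0 : 0 < 8 / η := by positivity
  refine ⟨((2 * K : ℕ) : ℝ)⁻¹, by positivity, ⌈Real.exp (c₀ ^ (2 * K))⌉₊, fun N hN A hA hF => ?_⟩
  by_contra hn
  have n1 : Real.exp (c₀ ^ (2 * K)) ≤ N := (Nat.le_ceil _).trans (Nat.cast_le.2 hN)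
  have n0 : (0 : ℝ) < N := (Real.exp_pos _).trans_le n1
  have N1 : 1 ≤ N := by exact_mod_cast n0
  have n2 : (1 : ℝ) ≤ N := by exact_mod_cast N1
  set L := Real.log N with hL
  set Y := L ^ ((2 * K : ℕ) : ℝ)⁻¹ with hY
  have l0 : 0 ≤ L := Real.log_nonneg n2
  have y0 : 0 ≤ Y := Real.rpow_nonneg l0 _
  have y1 : Y ^ (2 * K) = L := Real.rpow_inv_natCast_pow l0 (by omega)
  have y2 : (c₀ : ℝ) ≤ Y := by
    refine le_of_pow_le_pow_left₀ (n := 2 * K) (by omega) y0 ?_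
    rw [y1]; exact (Real.le_log_iff_exp_le n0).2 n1
  set X := Y ^ 2 with hX
  have y4 : 4 ≤ Y := by linarith
  have x1 : 4 * Y ≤ X := by nlinarith
  have x3 : 3 ≤ X := by linarith
  have xK : X ^ K = L := by rw [hX, ← pow_mul, y1]
  have xc : (c : ℝ) ≤ X := by linarith
  have pw : ∀ {i j : ℕ}, i ≤ j → X ^ i ≤ X ^ j := fun h => pow_le_pow_right₀ (by linarith) h
  have px : ∀ {j : ℕ}, 1 ≤ j → X ≤ X ^ j := fun h => by simpa using pw h
  set P : ℕ → ℝ := fun e => if e ≤ 1 then L else X ^ a e with hP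
  have p1 : ∀ e, 2 ≤ e → P e = X ^ a e := fun e he => if_neg (by omega)
  have p2 : ∀ e, 1 ≤ e → X ^ a e ≤ P e := fun e he => by
    rcases he.eq_or_lt with rfl | k
    · exact (pw (by omega)).trans xK.le
    · rw [p1 e k]
  have p3 : ∀ e, X ≤ P e := fun e => by
    simp only [hP]; split_ifs
    exacts [xK ▸ px (by omega), px (by have := a1 e; omega)]
  have lg : Real.log L ≤ X := by
    rw [← y1, Real.log_pow]
    have := Real.log_le_sub_one_of_pos (show 0 < Y by linarith)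
    push_cast
    nlinarith
  have LL : Lad s N c P := by
    refine ⟨fun e => ?_, fun e => xc.trans (p3 e), lg.trans (p3 _), n2, le_rfl⟩
    rcases Nat.eq_zero_or_pos e with rfl | k
    · exact le_rfl
    · rw [p1 _ (by omega)]; exact (pw (a2 e)).trans (p2 e k)
  have cle : ∀ {x : ℕ}, x ≤ c → (x : ℝ) ≤ c := fun h => by exact_mod_cast h
  have pq : ∀ e {x : ℕ}, x ≤ c → P e ^ x ≤ P e ^ c := fun e _ h =>
    pow_le_pow_right₀ (by linarith [p3 e]) h
  have q0 : ∀ e, 0 ≤ P e ^ c := fun e => pow_nonneg (by linarith [p3 e]) _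
  set θ := Real.exp (-4) * (A.card / N) with hθ
  have θ1 : Real.exp (-X) ≤ θ := by
    have h1 : Real.exp (-Y) ≤ A.card / N := by
      rw [le_div_iff₀ n0, mul_comm]; exact (not_le.1 hn).le
    refine le_trans ?_ (mul_le_mul_of_nonneg_left h1 (Real.exp_pos _).le)
    rw [← Real.exp_add]; exact Real.exp_le_exp.2 (by linarith)
  have θ2 : θ ≤ 4 := by
    have h1 : (A.card : ℝ) / N ≤ 1 := by
      rw [div_le_one n0]; exact_mod_cast (card_le_card hA).trans (by simp)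
    have h2 : Real.exp (-4) ≤ 1 := Real.exp_le_one_iff.2 (by norm_num)
    nlinarith [Real.exp_pos (-4), div_nonneg (Nat.cast_nonneg (α := ℝ) A.card) n0.le]
  have θ0 : 0 < θ := (Real.exp_pos _).trans_le θ1
  have key : ∀ i : ℕ, (i : ℝ) + 1 ≤ X ^ 2 → ∃ T : Tow, T.Ok s N ∧
      (∀ e, T.dm e ≤ 1 + (i + 1) * P (e + 1) ^ c ∧
        T.yy N e ≤ (i + 1) * (2 + (i + 1) * P (e + 1) ^ c) * P (e + 1) ^ c) ∧
      GS T 0 (ind (A.image Nat.cast)) 1 ((1 + η) ^ i * θ) ∧ T.LFd s (P (s + 1)) (P (s + 1)) := by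
    intro i
    induction i with
    | zero =>
      intro _
      rcases hD N P (t0 N) 1 _ θ (lad_mono LL (cle (by omega))) (ok_t0 hs n2)
        (fun e => ⟨(cx_t0 hs n2 e).1.trans (by linarith [p3 e]),
          (cx_t0 hs n2 e).2.trans (by linarith [p3 e])⟩) (unit_ind _)
        (le_trans (Real.exp_le_exp.2 (neg_le_neg (p3 _))) θ1) θ2 le_rfl
        (by push_cast; linarith [p3 (0 + 1)]) (gs_t0 hs N1 A hA) (lfd_zero (ok_t0 hs n2) _ _) with
        ⟨T, g1, g2, g3, g4⟩ | ⟨j, g1, g2, g3⟩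
      · refine ⟨T, g1, fun e => ?_, by simpa using g3, g4⟩
        obtain ⟨h1, h2⟩ := grow_mono g2 (fun e => pq e (show cD ≤ c by omega)) e
        obtain ⟨h3, h4⟩ := cx_t0 hs n2 e
        have := q0 (e + 1)
        push_cast
        constructor <;> nlinarith only [h1, h2, h3, h4, this, mul_le_mul_of_nonneg_right h3 this,
          mul_nonneg this this]
      · have h1 := no_cert n2 g3
        have h2 : P (j + 1) ^ cD ≤ L := by
          refine (pq _ (show cD ≤ c by omega)).trans ((pow_le_pow_left₀ (by linarith [p3 (j + 1)])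
            (lad_le LL (show 2 ≤ j + 1 by omega)) _).trans ?_)
          rw [p1 2 le_rfl, ← pow_mul, ← xK]
          exact pw (by have : 2 * (a 2 * c) + 5 ≤ a 1 := a3 1 hs; omega)
        have h3 := h1.trans (Real.exp_le_exp.2 h2)
        rw [hL, Real.exp_log n0] at h3
        have h4 : X ≤ L := p3 0
        have h5 := Real.log_le_sub_one_of_pos n0
        nlinarith only [h3, h4, h5, x3, hL]
    | succ i ih =>
      intro hi
      push_cast at hi
      have i0 : (0 : ℝ) ≤ i := Nat.cast_nonneg i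
      obtain ⟨T, g1, g2, g3, g4⟩ := ih (by linarith)
      have cx : ∀ e, 1 ≤ e → e ≤ s → T.dm e ≤ X ^ a e ∧ T.yy N e ≤ X ^ a e := fun e k he =>
        have := num_cx x3 (show (i : ℝ) + 1 ≤ X ^ 2 by linarith)
          (by rw [p1 _ (show 2 ≤ e + 1 by omega), ← pow_mul]) (g2 e).1 (g2 e).2 (by linarith)
        ⟨this.1.trans (pw (a3 e he)), this.2.trans (pw (a3 e he))⟩
      have xp : X ^ cI ≤ P (s + 1) := (pw (by have := a1 (s + 1); omega)).trans (p2 _ (by omega))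
      obtain ⟨T', t1, t2, t3, t4⟩ := hI N P T _ _ X (lad_mono LL (cle (by omega))) g1
        (cx_of hs g1 (fun e => by linarith [p3 e]) fun e k he =>
          ⟨(cx e k he).1.trans (p2 e k), (cx e k he).2.trans (p2 e k)⟩) (apf_of (by omega) hF)
        (fun h => by
          have h1 := (hB T s N g1 n2).2 h
          obtain ⟨h2, h3⟩ := cx 1 le_rfl hs
          have h4 : X ≤ X ^ a 1 := px (by have := a1 1; omega)
          have h5 : (cB : ℝ) ≤ X := (cle (by omega)).trans xc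
          have h6 : (T.dm 1 + 1) ^ 2 ≤ (2 * X ^ a 1) ^ 2 :=
            pow_le_pow_left₀ (by linarith [dm_nonneg T 1]) (by linarith) 2
          have h7 := mul_le_mul h5 h6 (sq_nonneg _) (by linarith)
          have h8 : L = X ^ 2 * (X * (X ^ a 1) ^ 2) := by rw [← xK, hK]; ring
          have h9 : X ^ a 1 < X * (X ^ a 1) ^ 2 := by nlinarith only [h4, x3]
          have h10 : 9 * (X * (X ^ a 1) ^ 2) ≤ X ^ 2 * (X * (X ^ a 1) ^ 2) :=
            mul_le_mul_of_nonneg_right (by nlinarith only [x3]) (by positivity)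
          nlinarith only [h1, h3, h7, h8, h9, h10, h4, x3, hL])
        ((cle (by omega)).trans xc) xp lg
        (θ1.trans (le_mul_of_one_le_left θ0.le (one_le_pow₀ (by linarith)))) g3
        (lfd_mono g1 g4 le_rfl xp xp)
      refine ⟨T', t1, fun e => ?_, by rwa [← mul_assoc, ← pow_succ'] at t3, t4⟩
      obtain ⟨h1, h2⟩ := grow_mono t2 (fun e => pq e (show cI ≤ c by omega)) e
      obtain ⟨h3, h4⟩ := g2 e
      have := q0 (e + 1)
      push_cast
      constructor <;> nlinarith only [h1, h2, h3, h4, this, mul_le_mul_of_nonneg_right h3 this,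
        mul_nonneg this this, mul_nonneg i0 (mul_nonneg this this)]
  have m1 := Nat.floor_le (show 0 ≤ X ^ 2 - 1 by nlinarith)
  have m2 := Nat.lt_floor_add_one (X ^ 2 - 1)
  obtain ⟨T, g1, -, g3, g4⟩ := key ⌊X ^ 2 - 1⌋₊ (by linarith)
  have cu : (cU : ℝ) ≤ P (s + 1) := (cle (by omega)).trans (LL.big _)
  have h1 := hU N T _ _ g1 (unit_ind _) g3 (lfd_mono g1 g4 le_rfl cu cu)
  have h2 : Real.exp (η / 2) ≤ 1 + η := by
    have h3 := Real.add_one_le_exp (-(η / 2))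
    have h4 : Real.exp (η / 2) * Real.exp (-(η / 2)) = 1 := by rw [← Real.exp_add]; simp
    nlinarith only [h3, h4, η0, η1, Real.exp_pos (η / 2),
      mul_le_mul_of_nonneg_left h3 (Real.exp_pos (η / 2)).le, mul_nonneg η0.le (sub_nonneg.2 η1)]
  have h3 := mul_le_mul (pow_le_pow_left₀ (Real.exp_pos _).le h2 ⌊X ^ 2 - 1⌋₊) θ1
    (Real.exp_pos _).le (by positivity)
  rw [← Real.exp_nat_mul, ← Real.exp_add] at h3
  have h4 : 8 ≤ η * X := by
    have : 8 / η ≤ X := by linarith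
    rwa [div_le_iff₀' η0] at this
  have h5 := Real.add_one_le_exp (⌊X ^ 2 - 1⌋₊ * (η / 2) + -X)
  nlinarith only [h1, h3, h5, h4, m2, η0, η1, x3, mul_le_mul_of_nonneg_right m2.le η0.le,
    mul_le_mul_of_nonneg_right h4 (show 0 ≤ X by linarith)]

theorem result_of (h : ∀ s, 1 ≤ s → INC s ∧ UB s ∧ DOWN s) (hB : THB) : RESULT := fun k hk => by
  obtain ⟨s, rfl⟩ : ∃ s, k = s + 2 := ⟨k - 2, by omega⟩
  obtain ⟨h1, h2, h3⟩ := h s (by omega)
  exact bound (by omega) h1 h2 hB h3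

open Classical in
theorem erdos_of (h : RESULT) (k : ℕ) (hk : 3 ≤ k) (A : Set ℕ)
    (hA : ¬ Summable fun a : A => (1 : ℝ) / ((a : ℕ) : ℝ)) :
    ∃ a d : ℕ, 0 < d ∧ ∀ i : ℕ, i < k → a + i * d ∈ A := by
  obtain ⟨c, hc, N₀, h⟩ := h k hk
  by_contra hn
  refine hA (((P057.H279.summable_series A _ (P057Z.Rg.summ hc) (fun _ => (Real.exp_pos _).le) N₀
    fun j hj => ?_).subtype A).congr fun a => if_pos a.2)
  have := h (2 ^ j) (hj.trans Nat.lt_two_pow_self.le) _ (filter_subset (· ∈ A) _) fun a d hd k =>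
    hn ⟨a, d, hd, fun i hi => (mem_filter.1 (k i hi)).2⟩
  rwa [Nat.cast_pow, Real.log_pow, Nat.cast_ofNat] at this

end

end Vale.Agent.P057FN
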